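import Vale.Agent.P144S.V.Van
import Vale.Agent.P144Q.U.Uni
import Vale.Agent.P144Q.R.Uc3
import Vale.Agent.P144Q.R.Bdc

/-!
The domains of the class give the abstract data.
-/

namespace Vale.Agent.P144S.V

open Vale.Agent.P144 Vale.Agent.P144Q

theorem domP : SDomP := by
  intro D hD hs hsm
  obtain ⟨c, hc⟩ := R.map3 hD hs
  have hF := L.fat3 hD
  refine ⟨⟨⟨D, c.BdC, c.op, hsm, U.conn c, U.smul c, U.zero c, U.uni D c,
    fun h => (P144Q.V.van D c.op hsm hF h).1, fun h F h1 h2 => ?_⟩,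
    fun h => (vanU D c.op hsm hF h).1, fun h F h1 h2 => ?_⟩, rfl⟩
  · have h3 := P144Q.V.van D c.op hsm hF h
    exact R.bdc D c hD.2.1 hc _ _ F h.cpt h.sub h1 h2 h3.1 h3.2
  · have h3 := vanU D c.op hsm hF h
    exact R.bdc D c hD.2.1 hc _ _ F h.cpt h.sub h1 h2 h3.1 h3.2

end Vale.Agent.P144S.V
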