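import Vale.Agent.P144S.Defs
import Vale.Agent.P144Q.Van

/-!
Families of sets of cells lie between families of unions of blocks.
-/

namespace Vale.Agent.P144S.V

open Filter Topology Metric Vale.Agent.P144 Vale.Agent.P144Q
open Vale.Agent.P144.H170 (Pt pt nf ev_nf pt_fl_norm)
open Vale.Agent.P144Q.V (king fin_sd sd_le)
open Vale.Agent.P144G (KC)
open Relation

/-- Paths of nearest neighbours outside `Q`. -/
abbrev Rn (Q : Set Site) : Site → Site → Prop :=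
  ReflTransGen fun x y : Site => y ∉ Q ∧ |x.1 - y.1| + |x.2 - y.2| = 1

theorem Rn.out {Q : Set Site} {v w : Site} (h : Rn Q v w) (hv : v ∉ Q) : w ∉ Q := by
  induction h with
  | refl => exact hv
  | tail _ h2 _ => exact h2.1

theorem Rn.rev {Q : Set Site} {v w : Site} (h : Rn Q v w) (hv : v ∉ Q) : Rn Q w v := by
  induction h with
  | refl => exact .refl
  | tail h1 h2 ih =>
    exact .head ⟨Rn.out h1 hv, by rw [abs_sub_comm, abs_sub_comm _ (Prod.snd _)]; exact h2.2⟩ ih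

theorem Rn.step {Q : Set Site} {v w : Site} (h : |v.1 - w.1| + |v.2 - w.2| ≤ 1) (hw : w ∉ Q) :
    Rn Q v w := by
  rcases h.lt_or_eq with h1 | h1
  · have := abs_nonneg (v.1 - w.1)
    have := abs_nonneg (v.2 - w.2)
    have e : v = w := Prod.ext (sub_eq_zero.1 (abs_eq_zero.1 (by lia)))
      (sub_eq_zero.1 (abs_eq_zero.1 (by lia)))
    rw [e]
  · exact .single ⟨hw, h1⟩

theorem Rn.king {Q : Set Site} {v w : Site} (h1 : |w.1 - v.1| ≤ 1) (h2 : |w.2 - v.2| ≤ 1)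
    (hc : ((w.1, v.2) : Site) ∉ Q) (hw : w ∉ Q) : Rn Q v w :=
  ReflTransGen.trans (Rn.step (w := (w.1, v.2)) (by simpa [abs_sub_comm] using h1) hc)
    (Rn.step (by simpa [abs_sub_comm] using h2) hw)

theorem blk_le {s t : ℤ} (h : s / 2 = t / 2) : |t - s| ≤ 1 := by
  rw [abs_le]; omega

theorem NC.kc {P : Finset Site} (h : NC P) : KC P := fun v hv w hw =>
  ReflTransGen.mono (fun _ _ e => ⟨e.1, P144G.adj e.2⟩) _ _ (h v hv w hw)

theorem self_Vx {P : Finset Site} {x : Site} (h : x ∈ P) : x ∈ Vx P :=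
  Finset.mem_biUnion.2 ⟨x, h, by simp [AL.mem_cnr]⟩

theorem small0 {s : ℝ} (hs : 0 < s) : ∀ᶠ a in 𝓝[>] (0:ℝ), 0 < a ∧ a < s :=
  Ioo_mem_nhdsGT hs

/-- The criterion for families of blocks. -/
theorem famB (hB : SBlk) {D : Set ℂ} {P : ℝ → Finset Site}
    (inn : ∀ z ∈ D, ∀ᶠ kx in nf (𝓝[>] (0:ℝ)) (fun a => a) z, kx.2 ∈ P kx.1)
    (sub : ∀ ε > (0:ℝ), ∀ᶠ a in 𝓝[>] (0:ℝ), ∀ x ∈ P a, ∃ z ∈ D, ‖pt a x - z‖ ≤ ε)
    (nc : ∀ᶠ a in 𝓝[>] (0:ℝ), NC (P a)) (blk : ∀ a, Blk (P a)) : FamB D P := by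
  refine ⟨⟨⟨inn, sub, nc.mono fun a => NC.kc⟩, nc⟩, blk,
    fun z hz => (inn z hz).mono fun kx => self_Vx, fun ε hε => ?_,
    nc.mono fun a => (hB _ (blk a)).2⟩
  filter_upwards [sub (ε / 2) (by positivity), small0 (s := ε / 4) (by positivity)]
    with a h1 ⟨h2, h3⟩ x hx
  obtain ⟨f, hf, h4⟩ := Finset.mem_biUnion.1 hx
  obtain ⟨z, hz, h5⟩ := h1 f hf
  have h6 := king h2 (x := f) (y := x)
    (by rcases AL.mem_cnr.1 h4 with rfl | rfl | rfl | rfl <;> simp)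
    (by rcases AL.mem_cnr.1 h4 with rfl | rfl | rfl | rfl <;> simp)
  exact ⟨z, hz, by linarith [norm_sub_le_norm_sub_add_norm_sub (pt a x) (pt a f) z]⟩

open Classical in
/-- The blocks inside `P`. -/
noncomputable def low (P : Finset Site) : Finset Site :=
  P.filter fun x => ∀ y : Site, x.1 / 2 = y.1 / 2 → x.2 / 2 = y.2 / 2 → y ∈ P

theorem mem_low {P : Finset Site} {x : Site} :
    x ∈ low P ↔ ∀ y : Site, x.1 / 2 = y.1 / 2 → x.2 / 2 = y.2 / 2 → y ∈ P := by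
  classical
  rw [low, Finset.mem_filter]
  exact ⟨fun h => h.2, fun h => ⟨h x rfl rfl, h⟩⟩

theorem low_sub (P : Finset Site) : low P ⊆ P := fun x hx => mem_low.1 hx x rfl rfl

theorem low_blk (P : Finset Site) : Blk (low P) := fun _ _ h1 h2 hx =>
  mem_low.2 fun w e1 e2 => mem_low.1 hx w (h1.trans e1) (h2.trans e2)

theorem low_nc {P : Finset Site} (h : NC P) : NC (low P) := by
  have key : ∀ v ∉ low P, ∃ y ∉ P, Rn (low P) v y := by
    intro v hv
    have h1 := mt mem_low.2 hv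
    push Not at h1
    obtain ⟨y, e1, e2, hy⟩ := h1
    exact ⟨y, hy, Rn.king (blk_le e1) (blk_le e2)
      (fun c => hv (low_blk P (y.1, v.2) v e1.symm rfl c)) fun c => hy (low_sub P c)⟩
  intro v hv w hw
  obtain ⟨y, h1, h2⟩ := key v hv
  obtain ⟨y', h3, h4⟩ := key w hw
  exact ReflTransGen.trans h2 (ReflTransGen.trans
    (ReflTransGen.mono (fun _ _ e => ⟨fun c => e.1 (low_sub P c), e.2⟩) _ _ (h y h1 y' h3))
    (Rn.rev h4 hw))

theorem low_fam (hB : SBlk) {D : Set ℂ} {P : ℝ → Finset Site} (hP : FamP D P) :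
    FamB D fun a => low (P a) :=
  famB hB (fun z hz => (hP.1.near tendsto_id hz 1).mono fun kx h =>
      mem_low.2 fun y e1 e2 => h y (by simpa using blk_le e1) (by simpa using blk_le e2))
    (fun ε hε => (hP.1.sub ε hε).mono fun a h x hx => h x (low_sub _ hx))
    (hP.2.mono fun _ => low_nc) fun _ => low_blk _

/-- The blocks which meet `P`. -/
def hull (P : Finset Site) : Set Site := {y | ∃ x ∈ P, x.1 / 2 = y.1 / 2 ∧ x.2 / 2 = y.2 / 2}

open Classical in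
/-- The sites which are separated from `o` by the blocks which meet `P`. -/
noncomputable def upp (P : Finset Site) (o : Site) : Finset Site :=
  if h : {x | ¬ Rn (hull P) o x}.Finite ∧ o ∉ hull P then h.1.toFinset else ∅

theorem mem_upp {P : Finset Site} {o x : Site} (h1 : {x | ¬ Rn (hull P) o x}.Finite)
    (h2 : o ∉ hull P) : x ∈ upp P o ↔ ¬ Rn (hull P) o x := by
  rw [upp, dif_pos ⟨h1, h2⟩, Set.Finite.mem_toFinset]
  rfl

theorem upp_blk (P : Finset Site) (o : Site) : Blk (upp P o) := by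
  intro x y e1 e2 hx
  by_cases h : {x | ¬ Rn (hull P) o x}.Finite ∧ o ∉ hull P
  · rw [mem_upp h.1 h.2] at hx ⊢
    intro hy
    have h1 := Rn.out hy h.2
    exact hx (ReflTransGen.trans hy (Rn.king (blk_le e1.symm) (blk_le e2.symm)
      (fun ⟨w, c0, c1, c2⟩ => h1 ⟨w, c0, c1.trans e1, c2⟩)
      fun ⟨w, c0, c1, c2⟩ => h1 ⟨w, c0, c1.trans e1, c2.trans e2⟩))
  · rw [upp, dif_neg h] at hx
    simp at hx

theorem upp_nc {P : Finset Site} {o : Site} (h1 : {x | ¬ Rn (hull P) o x}.Finite)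
    (h2 : o ∉ hull P) : NC (upp P o) := by
  have key : ∀ v, Rn (hull P) o v → Rn (upp P o) o v := by
    intro v hv
    induction hv with
    | refl => exact .refl
    | tail a1 a2 ih => exact .tail ih ⟨fun c => (mem_upp h1 h2).1 c (.tail a1 a2), a2.2⟩
  intro v hv w hw
  rw [mem_upp h1 h2, not_not] at hv hw
  exact ReflTransGen.trans (Rn.rev (key v hv) fun c => (mem_upp h1 h2).1 c .refl) (key w hw)

theorem floor_near {s t : ℝ} (h : |t - s| < 1) : |⌊t⌋ - ⌊s⌋| ≤ 1 := by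
  rw [abs_lt] at h
  have a1 : ((⌊t⌋ - ⌊s⌋ : ℤ) : ℝ) < (2 : ℤ) := by
    push_cast; linarith [Int.floor_le t, Int.lt_floor_add_one s]
  have a2 : ((-2 : ℤ) : ℝ) < (⌊t⌋ - ⌊s⌋ : ℤ) := by
    push_cast; linarith [Int.floor_le s, Int.lt_floor_add_one t]
  have a3 := Int.cast_lt.1 a1
  have a4 := Int.cast_lt.1 a2
  rw [abs_le]; omega

theorem fl_pt {a : ℝ} (ha : 0 < a) (x : Site) : fl a (pt a x) = x := by
  simp [fl, pt, mul_div_cancel_left₀ _ ha.ne']

/-- From connected sets to lattice paths. -/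
theorem rn_of {Q : Set Site} {S : Set ℂ} {a : ℝ} (ha : 0 < a) (hS : IsPreconnected S)
    (hQ : ∀ u ∈ S, ∀ x, ‖pt a x - u‖ ≤ 4 * a → x ∉ Q) {u w : ℂ} (hu : u ∈ S) (hw : w ∈ S) :
    Rn Q (fl a u) (fl a w) := by
  refine hS.induction₂' (fun u w => Rn Q (fl a u) (fl a w)) (fun u hu => ?_)
    (fun _ _ _ _ _ _ h1 h2 => ReflTransGen.trans h1 h2) hu hw
  filter_upwards [nhdsWithin_le_nhds (ball_mem_nhds u ha)] with w hw
  rw [mem_ball, dist_eq_norm] at hw
  have k : ∀ s t : ℝ, |t - s| < a → |⌊t / a⌋ - ⌊s / a⌋| ≤ 1 := fun s t h => floor_near (by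
    rwa [← sub_div, abs_div, abs_of_pos ha, div_lt_one ha])
  have h1 : |(fl a w).1 - (fl a u).1| ≤ 1 :=
    k _ _ (lt_of_le_of_lt (by simpa using Complex.abs_re_le_norm (w - u)) hw)
  have h2 : |(fl a w).2 - (fl a u).2| ≤ 1 :=
    k _ _ (lt_of_le_of_lt (by simpa using Complex.abs_im_le_norm (w - u)) hw)
  have out : ∀ y : Site, |y.1 - (fl a u).1| ≤ 1 → |y.2 - (fl a u).2| ≤ 1 → y ∉ Q :=
    fun y c1 c2 => hQ u hu y (by
      linarith [norm_sub_le_norm_sub_add_norm_sub (pt a y) (pt a (fl a u)) u, king ha c1 c2,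
        pt_fl_norm ha u])
  exact ⟨Rn.king h1 h2 (out _ h1 (by simp)) (out _ h1 h2),
    Rn.king (by rwa [abs_sub_comm]) (by rwa [abs_sub_comm]) (out _ (by simp) h2)
      (out _ (by simp) (by simp))⟩

theorem far_conn {D : Set ℂ} {P : ℝ → Finset Site} (hD : D ⊆ ball 0 (1 / 4)) (hO : Out D)
    (hP : Fam0 D P) (hne : D.Nonempty) {ε : ℝ} (hε : 0 < ε) : ∀ᶠ a in 𝓝[>] (0:ℝ),
    fl a 1 ∉ hull (P a) ∧ ∀ x, Rn (hull (P a)) (fl a 1) x ∨ ∃ z ∈ D, ‖pt a x - z‖ ≤ ε := by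
  obtain ⟨δ, hδ, h⟩ := hO (min ε (1 / 2)) (by positivity)
  have h1 : min ε (1 / 2) ≤ infDist (1:ℂ) D := (min_le_right _ _).trans
    ((le_infDist hne).2 fun y hy => by
      have a1 := mem_ball.1 (hD hy)
      have a2 := dist_triangle (1:ℂ) y 0
      rw [dist_zero_right, norm_one] at a2
      linarith)
  filter_upwards [hP.sub (δ / 4) (by positivity), small0 (s := δ / 8) (by positivity)]
    with a h2 ⟨h3, h4⟩
  have hQ : ∀ u : ℂ, δ ≤ infDist u D → ∀ x, ‖pt a x - u‖ ≤ 4 * a → x ∉ hull (P a) := by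
    rintro u hu x hx ⟨y, hy, e1, e2⟩
    obtain ⟨z, hz, h5⟩ := h2 y hy
    have a1 := infDist_le_dist_of_mem (x := u) hz
    have a2 := norm_sub_le_norm_sub_add_norm_sub u (pt a x) z
    have a3 := norm_sub_le_norm_sub_add_norm_sub (pt a x) (pt a y) z
    rw [norm_sub_rev u (pt a x)] at a2
    rw [dist_eq_norm] at a1
    linarith [king h3 (blk_le e1) (blk_le e2)]
  refine ⟨hQ 1 (h 1 1 h1 h1).source_mem _ (by linarith [pt_fl_norm h3 1]), fun x => ?_⟩
  by_cases hx : min ε (1 / 2) ≤ infDist (pt a x) D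
  · obtain ⟨γ, hγ⟩ := h 1 (pt a x) h1 hx
    have := rn_of h3 (isPreconnected_range γ.continuous)
      (fun u ⟨t, ht⟩ => hQ u (ht ▸ hγ t)) γ.source_mem_range γ.target_mem_range
    rw [fl_pt h3] at this
    exact Or.inl this
  · obtain ⟨z, hz, h5⟩ := (infDist_lt_iff hne).1 (not_le.1 hx)
    rw [dist_eq_norm] at h5
    exact Or.inr ⟨z, hz, h5.le.trans (min_le_left _ _)⟩

theorem sand (hB : SBlk) : SSand := by
  intro D P _ hD hO hP
  rcases D.eq_empty_or_nonempty with rfl | hne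
  · refine ⟨_, _, low_fam hB hP, low_fam hB hP, (hP.1.sub 1 one_pos).mono fun a h =>
      ⟨low_sub _, fun x hx => ?_⟩⟩
    obtain ⟨z, hz, -⟩ := h x hx
    exact hz.elim
  have fin : ∀ᶠ a in 𝓝[>] (0:ℝ), {x | ¬ Rn (hull (P a)) (fl a 1) x}.Finite ∧
      fl a 1 ∉ hull (P a) := by
    filter_upwards [far_conn hD hO hP.1 hne (half_pos one_pos), small0 one_pos]
      with a ⟨h1, h2⟩ ⟨h3, _⟩
    refine ⟨(fin_sd ((0:ℂ).re / a, (0:ℂ).im / a) (2 / a)).subset fun x hx => ?_, h1⟩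
    obtain ⟨z, hz, h4⟩ := (h2 x).resolve_left hx
    have a1 := mem_ball.1 (hD hz)
    rw [dist_eq_norm] at a1
    refine ((sd_le h3 zero_le_one 0 x).2 (by
      linarith [norm_sub_le_norm_sub_add_norm_sub (pt a x) z 0])).trans_lt ?_
    gcongr
    norm_num
  have sub : ∀ᶠ a in 𝓝[>] (0:ℝ), P a ⊆ upp (P a) (fl a 1) := fin.mono fun a h x hx =>
    (mem_upp h.1 h.2).2 fun c => Rn.out c h.2 ⟨x, hx, rfl, rfl⟩
  refine ⟨_, fun a => upp (P a) (fl a 1), low_fam hB hP, famB hB (fun z hz => ?_) (fun ε hε => ?_)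
    (fin.mono fun a h => upp_nc h.1 h.2) fun a => upp_blk _ _,
    sub.mono fun a h => ⟨low_sub _, h⟩⟩
  · filter_upwards [hP.1.inn z hz, H170.ev_nf_of sub] with kx h1 h2 using h2 h1
  · filter_upwards [fin, far_conn hD hO hP.1 hne hε] with a h1 h2 x hx
    exact (h2.2 x).resolve_left ((mem_upp h1.1 h1.2).1 hx)

end Vale.Agent.P144S.V
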